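import Vale.Agent.P139.H340.Ev0

/-!
Smallness of the evanescent component of the radial pair at the boundary radius.
-/

open Complex Set MeasureTheory Filter Topology
open scoped ComplexConjugate

namespace Vale.Agent.P139.H340

open Vale.Agent.P139.H498

/-- `cosh x ≥ x⁴/48`. -/
theorem cosh_ge (x : ℝ) : x ^ 4 / 48 ≤ Real.cosh x := by
  have h0 : ∀ x : ℝ, 0 ≤ x → x ^ 4 / 48 ≤ Real.cosh x := by
    intro x hx
    have h1 : x ^ 4 / 24 + x ^ 3 / 6 + x ^ 2 / 2 + x + 1 ≤ Real.exp x := by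
      have := Real.sum_le_exp_of_nonneg hx 5
      simp only [Finset.sum_range_succ, Finset.sum_range_zero, Nat.factorial] at this
      norm_num at this
      linarith
    have h2 := Real.exp_pos (-x)
    rw [Real.cosh_eq]
    have h4 : 0 ≤ x ^ 3 / 6 + x ^ 2 / 2 + x + 1 := by positivity
    linarith
  rcases le_total 0 x with hx | hx
  · exact h0 x hx
  · have := h0 (-x) (by linarith)
    rw [Real.cosh_neg] at this
    have e : (-x) ^ 4 = x ^ 4 := by ring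
    rwa [e] at this

/-- The smallness form for `A + i B`: `κ³ M(b) |w(b)|²` is small relative to the energy, up to the
boundary error `e0` and the potential error `eps1`. -/
theorem ev_kappa_aux (C c3 h m1 m2 eps : ℝ) (hc3 : 0 < c3) (hh : 0 < h) (hm1 : 0 < m1)
    (heps : 0 < eps) :
    ∃ K0 C' : ℝ, 0 < K0 ∧ 0 < C' ∧
      ∀ {c0 : ℝ} {μ : ℂ} {M X VA VB : ℝ → ℝ} {A B A1 B1 : ℝ → ℂ}
        {M' X' VA' VB' : ℝ → ℝ} {A2 B2 : ℝ → ℂ} {b κ eps1 e0 : ℝ}, K0 ≤ κ →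
      (∀ r ∈ Icc (b - h) b, SysAt c0 μ M X VA VB A B A1 B1 r (M' r) (X' r) (VA' r) (VB' r)
        (A2 r) (B2 r)) →
      (∀ r ∈ Icc (b - h) b, m1 ≤ M r ∧ M r ≤ m2) →
      (∀ r ∈ Icc (b - h) b, |M' r| ≤ C * M r) → (∀ r ∈ Icc (b - h) b, |X r| ≤ C) →
      (∀ r ∈ Icc (b - h) b, VB r ≤ VA r ∧ VA r ≤ VB r + eps1) →
      (∀ r ∈ Icc (b - h) b, c3 * κ ^ 2 ≤ VB r + μ.im) → 0 ≤ e0 →
      M b * ((A1 b + I * B1 b) * conj (A b + I * B b)).re ≤ e0 →
      κ ^ 3 * (M b * normSq (A b + I * B b)) ≤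
        eps * (∫ r in (b - h)..b, M r * (normSq (A1 r) + normSq (B1 r)))
        + C' * κ ^ 2 * e0
        + C' * κ * eps1 * ((∫ r in (b - h)..b, M r * (normSq (A1 r) + normSq (B1 r)))
          + M b * normSq (A b - I * B b)) := by
  set c : ℝ := Real.sqrt c3 with hc
  have hc0 : 0 < c := Real.sqrt_pos.2 hc3
  have hcc : c ^ 2 = c3 := Real.sq_sqrt hc3.le
  set m3 : ℝ := |m2| + 1 with hm3
  have hm30 : 0 < m3 := by positivity
  refine ⟨1 + 8 / (c * h) + 2 * |C| / c + 384 * m3 * h / (m1 * c ^ 4 * h ^ 4 * eps),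
    4 / c + 1 / c ^ 2 + 2 * h * m3 / (m1 * c ^ 2), by positivity, by positivity, ?_⟩
  intro c0 μ M X VA VB A B A1 B1 M' X' VA' VB' A2 B2 b κ eps1 e0 hκ hs hM hM' hX hV hc3' he0 hend
  have hq1 : 0 < 8 / (c * h) := by positivity
  have hq2 : 0 ≤ 2 * |C| / c := by positivity
  have hq3 : 0 < 384 * m3 * h / (m1 * c ^ 4 * h ^ 4 * eps) := by positivity
  have hκ1 : 1 ≤ κ := by linarith
  have hκ0 : 0 < κ := by linarith
  have hκa : 8 / (c * h) ≤ κ := by linarith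
  have hκb : 2 * |C| / c ≤ κ := by linarith
  have hκc : 384 * m3 * h / (m1 * c ^ 4 * h ^ 4 * eps) ≤ κ := by linarith
  have hab : b - h < b := by linarith
  have hbI : b ∈ Icc (b - h) b := ⟨hab.le, le_rfl⟩
  have heps1 : 0 ≤ eps1 := by have := hV b hbI; linarith
  set K : ℝ := c * κ with hK
  have hK0 : 0 < K := by positivity
  have hbb : b - (b - h) = h := by ring
  have hK2 : ∀ r ∈ Icc (b - h) b, K ^ 2 + 2 * C ^ 2 ≤ 2 * (VB r + μ.im) := by
    intro r hr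
    have e1 := hc3' r hr
    have e2 : 2 * |C| ≤ κ * c := by rwa [div_le_iff₀ hc0] at hκb
    have e3 : (2 * |C|) ^ 2 ≤ (κ * c) ^ 2 := pow_le_pow_left₀ (by positivity) e2 2
    rw [mul_pow, sq_abs, mul_pow] at e3
    rw [hK, mul_pow, hcc]
    rw [hcc] at e3
    nlinarith [sq_nonneg C]
  have hMb := hM b hbI
  have hMb0 : 0 < M b := hm1.trans_le hMb.1
  have hMb3 : M b ≤ m3 := hMb.2.trans ((le_abs_self m2).trans (by linarith))
  have hKh : 8 ≤ K * h := by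
    rw [div_le_iff₀ (by positivity)] at hκa
    rw [hK]; linarith
  have hcosh1 := cosh_ge (K * h)
  have hcosh : 4 ≤ Real.cosh (K * (b - (b - h))) := by
    rw [hbb]
    have : (8 : ℝ) ^ 4 ≤ (K * h) ^ 4 := pow_le_pow_left₀ (by norm_num) hKh 4
    linarith
  have key := ev_final_aux (e0 := e0 / M b) hab hs hm1 (fun r hr => (hM r hr).1) hM' hX
    (fun r hr => (hV r hr).1) (fun r hr => (hV r hr).2) hK0 hK2 hcosh (by positivity)
    (by rw [le_div_iff₀ hMb0]; linarith)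
  rw [hbb] at key
  set E1 : ℝ := ∫ r in (b - h)..b, M r * (normSq (A1 r) + normSq (B1 r)) with hE1
  have hE0 : 0 ≤ E1 := intervalIntegral.integral_nonneg hab.le fun r hr =>
    mul_nonneg (hm1.le.trans (hM r hr).1) (add_nonneg (normSq_nonneg _) (normSq_nonneg _))
  set Y : ℝ := normSq (A b + I * B b) with hY
  set Z : ℝ := normSq (A b - I * B b) with hZ
  have hZ0 : 0 ≤ Z := normSq_nonneg _
  have hch0 : 0 < Real.cosh (K * h) := Real.cosh_pos _
  -- multiply by `κ³ M b`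
  have k1 : κ ^ 3 * (M b * Y) ≤ κ ^ 3 * (M b * (8 * h / m1 * E1 / Real.cosh (K * h)
      + 4 * (e0 / M b) / K + eps1 / (2 * K ^ 2) * (2 * Z + 4 * h / m1 * E1))) := by
    have h1 : 0 ≤ M b := hMb0.le
    exact mul_le_mul_of_nonneg_left (mul_le_mul_of_nonneg_left key h1) (by positivity)
  have t1 : κ ^ 3 * (M b * (8 * h / m1 * E1 / Real.cosh (K * h))) ≤ eps * E1 := by
    have e1 : κ ^ 3 * (M b * (8 * h / m1 * E1 / Real.cosh (K * h)))
        = (κ ^ 3 * M b * (8 * h / m1) / Real.cosh (K * h)) * E1 := by ring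
    rw [e1]
    refine mul_le_mul_of_nonneg_right ?_ hE0
    rw [div_le_iff₀ hch0]
    have e2 : κ ^ 3 * M b * (8 * h / m1) ≤ κ ^ 3 * m3 * (8 * h / m1) := by
      have e7 : 0 ≤ 8 * h / m1 := by positivity
      exact mul_le_mul_of_nonneg_right
        (mul_le_mul_of_nonneg_left hMb3 (by positivity)) e7
    have e3 : κ ^ 3 * m3 * (8 * h / m1) ≤ eps * ((K * h) ^ 4 / 48) := by
      rw [div_le_iff₀ (by positivity)] at hκc
      have e4 : κ ^ 3 * m3 * (8 * h / m1) = κ ^ 3 * (384 * m3 * h) / (48 * m1) := by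
        field_simp; ring
      have e5 : eps * ((K * h) ^ 4 / 48) = κ ^ 3 * (κ * (m1 * c ^ 4 * h ^ 4 * eps)) / (48 * m1) := by
        rw [hK]; field_simp
      rw [e4, e5]
      refine div_le_div_of_nonneg_right ?_ (by positivity)
      exact mul_le_mul_of_nonneg_left hκc (by positivity)
    have e6 := mul_le_mul_of_nonneg_left hcosh1 heps.le
    linarith
  have t2 : κ ^ 3 * (M b * (4 * (e0 / M b) / K)) = 4 / c * κ ^ 2 * e0 := by
    rw [hK]; field_simp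
  have t3 : κ ^ 3 * (M b * (eps1 / (2 * K ^ 2) * (2 * Z + 4 * h / m1 * E1)))
      = κ * eps1 * (1 / c ^ 2 * (M b * Z) + 2 * h * M b / (m1 * c ^ 2) * E1) := by
    rw [hK]; field_simp
    ring
  have t4 : 1 / c ^ 2 * (M b * Z) + 2 * h * M b / (m1 * c ^ 2) * E1
      ≤ (4 / c + 1 / c ^ 2 + 2 * h * m3 / (m1 * c ^ 2)) * (E1 + M b * Z) := by
    have e1 : 2 * h * M b / (m1 * c ^ 2) ≤ 2 * h * m3 / (m1 * c ^ 2) := by
      refine div_le_div_of_nonneg_right ?_ (by positivity)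
      have : 0 ≤ 2 * h := by positivity
      exact mul_le_mul_of_nonneg_left hMb3 this
    have e2 := mul_le_mul_of_nonneg_right e1 hE0
    have e3 : 0 ≤ M b * Z := by positivity
    have e4 : 0 ≤ 4 / c * (E1 + M b * Z) := by positivity
    have e5 : 0 ≤ 1 / c ^ 2 * E1 := by positivity
    have e6 : 0 ≤ 2 * h * m3 / (m1 * c ^ 2) * (M b * Z) := by positivity
    have e7 : (4 / c + 1 / c ^ 2 + 2 * h * m3 / (m1 * c ^ 2)) * (E1 + M b * Z)
        = 4 / c * (E1 + M b * Z) + 1 / c ^ 2 * E1 + 1 / c ^ 2 * (M b * Z)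
          + 2 * h * m3 / (m1 * c ^ 2) * E1 + 2 * h * m3 / (m1 * c ^ 2) * (M b * Z) := by ring
    rw [e7]
    linarith
  have t5 := mul_le_mul_of_nonneg_left t4 (by positivity : 0 ≤ κ * eps1)
  have t6 : 4 / c * κ ^ 2 * e0 ≤ (4 / c + 1 / c ^ 2 + 2 * h * m3 / (m1 * c ^ 2)) * κ ^ 2 * e0 := by
    have e1 : 0 ≤ (1 / c ^ 2 + 2 * h * m3 / (m1 * c ^ 2)) * κ ^ 2 * e0 := by positivity
    have e2 : (4 / c + 1 / c ^ 2 + 2 * h * m3 / (m1 * c ^ 2)) * κ ^ 2 * e0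
        = 4 / c * κ ^ 2 * e0 + (1 / c ^ 2 + 2 * h * m3 / (m1 * c ^ 2)) * κ ^ 2 * e0 := by ring
    rw [e2]
    linarith
  have k2 : κ ^ 3 * (M b * (8 * h / m1 * E1 / Real.cosh (K * h)
      + 4 * (e0 / M b) / K + eps1 / (2 * K ^ 2) * (2 * Z + 4 * h / m1 * E1)))
      = κ ^ 3 * (M b * (8 * h / m1 * E1 / Real.cosh (K * h)))
        + κ ^ 3 * (M b * (4 * (e0 / M b) / K))
        + κ ^ 3 * (M b * (eps1 / (2 * K ^ 2) * (2 * Z + 4 * h / m1 * E1))) := by ring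
  rw [k2, t2, t3] at k1
  have k3 : (4 / c + 1 / c ^ 2 + 2 * h * m3 / (m1 * c ^ 2)) * κ * eps1 * (E1 + M b * Z)
      = κ * eps1 * ((4 / c + 1 / c ^ 2 + 2 * h * m3 / (m1 * c ^ 2)) * (E1 + M b * Z)) := by ring
  rw [k3]
  linarith

/-- The smallness of the evanescent component, for both components `A + i B`, `A - i B`. -/
theorem ev_kappa (C c3 h m1 m2 eps : ℝ) (hc3 : 0 < c3) (hh : 0 < h) (hm1 : 0 < m1)
    (heps : 0 < eps) :
    ∃ K0 C' : ℝ, 0 < K0 ∧ 0 < C' ∧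
      ∀ {c0 : ℝ} {μ : ℂ} {M X VA VB : ℝ → ℝ} {A B A1 B1 : ℝ → ℂ}
        {M' X' VA' VB' : ℝ → ℝ} {A2 B2 : ℝ → ℂ} {b κ eps1 e0 : ℝ}, K0 ≤ κ →
      (∀ r ∈ Icc (b - h) b, SysAt c0 μ M X VA VB A B A1 B1 r (M' r) (X' r) (VA' r) (VB' r)
        (A2 r) (B2 r)) →
      (∀ r ∈ Icc (b - h) b, m1 ≤ M r ∧ M r ≤ m2) →
      (∀ r ∈ Icc (b - h) b, |M' r| ≤ C * M r) → (∀ r ∈ Icc (b - h) b, |X r| ≤ C) →
      (∀ r ∈ Icc (b - h) b, VB r ≤ VA r ∧ VA r ≤ VB r + eps1) → 0 ≤ e0 →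
      ((∀ r ∈ Icc (b - h) b, c3 * κ ^ 2 ≤ VB r + μ.im) →
        M b * ((A1 b + I * B1 b) * conj (A b + I * B b)).re ≤ e0 →
        κ ^ 3 * (M b * normSq (A b + I * B b)) ≤
          eps * (∫ r in (b - h)..b, M r * (normSq (A1 r) + normSq (B1 r)))
          + C' * κ ^ 2 * e0
          + C' * κ * eps1 * ((∫ r in (b - h)..b, M r * (normSq (A1 r) + normSq (B1 r)))
            + M b * normSq (A b - I * B b))) ∧
      ((∀ r ∈ Icc (b - h) b, c3 * κ ^ 2 ≤ VB r - μ.im) →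
        M b * ((A1 b - I * B1 b) * conj (A b - I * B b)).re ≤ e0 →
        κ ^ 3 * (M b * normSq (A b - I * B b)) ≤
          eps * (∫ r in (b - h)..b, M r * (normSq (A1 r) + normSq (B1 r)))
          + C' * κ ^ 2 * e0
          + C' * κ * eps1 * ((∫ r in (b - h)..b, M r * (normSq (A1 r) + normSq (B1 r)))
            + M b * normSq (A b + I * B b))) := by
  obtain ⟨K0, C', hK0, hC', H⟩ := ev_kappa_aux C c3 h m1 m2 eps hc3 hh hm1 heps
  refine ⟨K0, C', hK0, hC', ?_⟩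
  intro c0 μ M X VA VB A B A1 B1 M' X' VA' VB' A2 B2 b κ eps1 e0 hκ hs hM hM' hX hV he0
  refine ⟨fun hc3' hend => H hκ hs hM hM' hX hV hc3' he0 hend, fun hc3' hend => ?_⟩
  have hs' : ∀ r ∈ Icc (b - h) b, SysAt (-c0) (-μ) M (fun x => -X x) VA VB A (fun x => -B x) A1
      (fun x => -B1 x) r (M' r) (-X' r) (VA' r) (VB' r) (A2 r) (-B2 r) :=
    fun r hr => SysAt_flip (hs r hr)
  have key := H (X' := fun x => -X' x) (B2 := fun x => -B2 x) (e0 := e0) hκ hs' hM hM'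
    (fun r hr => by rw [abs_neg]; exact hX r hr) hV
    (fun r hr => by
      have := hc3' r hr
      rw [Complex.neg_im]; linarith) he0
    (by simpa only [mul_neg, ← sub_eq_add_neg] using hend)
  simpa only [mul_neg, ← sub_eq_add_neg, sub_neg_eq_add, Complex.normSq_neg] using key

/-- The same on `SysOn`, with the energy on all of `(0, b]`. -/
theorem ev_sysOn (C c3 h m1 m2 eps : ℝ) (hc3 : 0 < c3) (hh : 0 < h) (hm1 : 0 < m1)
    (heps : 0 < eps) :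
    ∃ K0 C' : ℝ, 0 < K0 ∧ 0 < C' ∧
      ∀ {c0 : ℝ} {μ : ℂ} {M X VA VB M' X' VA' VB' : ℝ → ℝ} {A B A1 B1 A2 B2 : ℝ → ℂ}
        {b κ eps1 e0 : ℝ}, K0 ≤ κ → h < b →
      SysOn c0 μ M X VA VB M' X' VA' VB' A B A1 B1 A2 B2 b →
      (∀ r ∈ Icc (b - h) b, m1 ≤ M r ∧ M r ≤ m2) →
      (∀ r ∈ Icc (b - h) b, |M' r| ≤ C * M r) → (∀ r ∈ Icc (b - h) b, |X r| ≤ C) →
      (∀ r ∈ Icc (b - h) b, VB r ≤ VA r ∧ VA r ≤ VB r + eps1) → 0 ≤ e0 →
      ((∀ r ∈ Icc (b - h) b, c3 * κ ^ 2 ≤ VB r + μ.im) →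
        M b * ((A1 b + I * B1 b) * conj (A b + I * B b)).re ≤ e0 →
        κ ^ 3 * (M b * normSq (A b + I * B b)) ≤
          eps * (∫ r in (0 : ℝ)..b, M r * (normSq (A1 r) + normSq (B1 r)))
          + C' * κ ^ 2 * e0
          + C' * κ * eps1 * ((∫ r in (0 : ℝ)..b, M r * (normSq (A1 r) + normSq (B1 r)))
            + M b * normSq (A b - I * B b))) ∧
      ((∀ r ∈ Icc (b - h) b, c3 * κ ^ 2 ≤ VB r - μ.im) →
        M b * ((A1 b - I * B1 b) * conj (A b - I * B b)).re ≤ e0 →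
        κ ^ 3 * (M b * normSq (A b - I * B b)) ≤
          eps * (∫ r in (0 : ℝ)..b, M r * (normSq (A1 r) + normSq (B1 r)))
          + C' * κ ^ 2 * e0
          + C' * κ * eps1 * ((∫ r in (0 : ℝ)..b, M r * (normSq (A1 r) + normSq (B1 r)))
            + M b * normSq (A b + I * B b))) := by
  obtain ⟨K0, C', hK0, hC', H⟩ := ev_kappa C c3 h m1 m2 eps hc3 hh hm1 heps
  refine ⟨K0, C', hK0, hC', ?_⟩
  intro c0 μ M X VA VB M' X' VA' VB' A B A1 B1 A2 B2 b κ eps1 e0 hκ hhb hs hM hM' hX hV he0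
  have hsub : ∀ r ∈ Icc (b - h) b, r ∈ Ioc 0 b := fun r hr => ⟨by linarith [hr.1], hr.2⟩
  have key := H hκ (fun r hr => hs.sys r (hsub r hr)) hM hM' hX hV he0
  have hb := hs.hb
  have hint : IntervalIntegrable (fun r => M r * (normSq (A1 r) + normSq (B1 r))) volume 0 b := by
    have := ((hs.bcMA1.intble hb).add (hs.bcMB1.intble hb))
    refine this.congr ?_
    intro r _
    simp only [mul_add]
  have hmono : (∫ r in (b - h)..b, M r * (normSq (A1 r) + normSq (B1 r)))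
      ≤ ∫ r in (0 : ℝ)..b, M r * (normSq (A1 r) + normSq (B1 r)) := by
    refine intervalIntegral.integral_mono_interval (by linarith) (by linarith) le_rfl ?_ hint
    refine (ae_restrict_iff' measurableSet_Ioc).2 (Eventually.of_forall fun r hr => ?_)
    exact mul_nonneg (hs.Mpos r hr).le (add_nonneg (normSq_nonneg _) (normSq_nonneg _))
  have hbI : b ∈ Icc (b - h) b := ⟨by linarith, le_rfl⟩
  have heps1 : 0 ≤ eps1 := by have := hV b hbI; linarith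
  have hκ0 : 0 < κ := hK0.trans_le hκ
  have hm := mul_le_mul_of_nonneg_left hmono heps.le
  have hm2 := mul_le_mul_of_nonneg_left hmono (by positivity : 0 ≤ C' * κ * eps1)
  refine ⟨fun h1 h2 => (key.1 h1 h2).trans ?_, fun h1 h2 => (key.2 h1 h2).trans ?_⟩
  · nlinarith
  · nlinarith

end Vale.Agent.P139.H340
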