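import Vale.Agent.P139.H498.Int5
import Vale.Agent.P139.H657.Conv

/-!
The evanescent component of the radial pair decays exponentially towards the boundary radius:
for `w = A + i B` (respectively `w = A - i B`), where `VB + Im μ` (respectively `VB - Im μ`) is
at least `c3 κ²` on `[a, b]`, the function `|w|²` satisfies a convexity inequality.
-/

open Complex Set MeasureTheory Filter Topology
open scoped ComplexConjugate

namespace Vale.Agent.P139.H340

open Vale.Agent.P139.H498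

/-- The equation of `w = A + i B`. -/
theorem SysAt_w2 {c0 : ℝ} {μ : ℂ} {M X VA VB : ℝ → ℝ} {A B A1 B1 : ℝ → ℂ}
    {r M' X' VA' VB' : ℝ} {A2 B2 : ℂ}
    (h : SysAt c0 μ M X VA VB A B A1 B1 r M' X' VA' VB' A2 B2) :
    (M r : ℂ) * (A2 + I * B2) = -(M' : ℂ) * (A1 r + I * B1 r)
      - (M r : ℂ) * (I * X r * (A1 r + I * B1 r))
      + (M r : ℂ) * ((VB r - I * (μ + c0)) * (A r + I * B r))
      + (M r : ℂ) * ((VA r - VB r) * A r) := by
  have h1 := h.eqA
  have h2 := h.eqB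
  have hI : I * I = -1 := Complex.I_mul_I
  linear_combination h1 + I * h2 + (M r * (X r * B1 r + (μ + c0) * B r) : ℂ) * hI

/-- Changing the sign of `B`. -/
theorem SysAt_flip {c0 : ℝ} {μ : ℂ} {M X VA VB : ℝ → ℝ} {A B A1 B1 : ℝ → ℂ}
    {r M' X' VA' VB' : ℝ} {A2 B2 : ℂ}
    (h : SysAt c0 μ M X VA VB A B A1 B1 r M' X' VA' VB' A2 B2) :
    SysAt (-c0) (-μ) M (fun x => -X x) VA VB A (fun x => -B x) A1 (fun x => -B1 x)
      r M' (-X') VA' VB' A2 (-B2) where
  hM := h.hM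
  hX := h.hX.neg
  hVA := h.hVA
  hVB := h.hVB
  hMX := by
    have := h.hMX
    linarith
  hA := h.hA
  hB := h.hB.neg
  hA1 := h.hA1
  hB1 := h.hB1.neg
  eqA := by
    have := h.eqA
    push_cast
    linear_combination this
  eqB := by
    have := h.eqB
    push_cast
    linear_combination -this

/-- The pointwise lower bound of the second derivative of `|A + i B|²`. -/
theorem y2_lower {c0 : ℝ} {μ : ℂ} {M X VA VB : ℝ → ℝ} {A B A1 B1 : ℝ → ℂ}
    {r M' X' VA' VB' : ℝ} {A2 B2 : ℂ} {C K eps1 V : ℝ}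
    (h : SysAt c0 μ M X VA VB A B A1 B1 r M' X' VA' VB' A2 B2)
    (hM : 0 < M r) (hM' : |M'| ≤ C * M r) (hX : |X r| ≤ C)
    (hV1 : VB r ≤ VA r) (hV2 : VA r ≤ VB r + eps1)
    (hK : K ^ 2 + 2 * C ^ 2 ≤ 2 * (VB r + μ.im))
    (hV : normSq (A r - I * B r) ≤ V) :
    K ^ 2 * normSq (A r + I * B r) - eps1 * V / 4
      ≤ 2 * (normSq (A1 r + I * B1 r)
        + ((A2 + I * B2) * conj (A r + I * B r)).re) := by
  have h1 := SysAt_w2 h
  set w : ℂ := A r + I * B r with hw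
  set w1 : ℂ := A1 r + I * B1 r with hw1
  set w2 : ℂ := A2 + I * B2 with hw2
  set wt : ℂ := A r - I * B r with hwt
  have hA : A r = (w + wt) / 2 := by rw [hw, hwt]; ring
  have hC0 : 0 ≤ C := (abs_nonneg _).trans hX
  have hMne : (M r : ℂ) ≠ 0 := by exact_mod_cast hM.ne'
  -- solve for `w2`
  set t : ℝ := M' / M r with ht
  have htC : |t| ≤ C := by
    rw [ht, abs_div, abs_of_pos hM, div_le_iff₀ hM]; exact hM'
  have h2 : w2 = -(t : ℂ) * w1 - I * X r * w1 + (VB r - I * (μ + c0)) * w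
      + (VA r - VB r) * ((w + wt) / 2) := by
    have e : (M r : ℂ) * w2 = (M r : ℂ) * (-(t : ℂ) * w1 - I * X r * w1
        + (VB r - I * (μ + c0)) * w + (VA r - VB r) * ((w + wt) / 2)) := by
      rw [h1, ← hA]
      have et : (M' : ℂ) = (t : ℂ) * M r := by
        rw [ht]; push_cast; field_simp
      rw [et]; ring
    exact mul_left_cancel₀ hMne e
  have h3 : (w2 * conj w).re = -t * (w1 * conj w).re + X r * (w1 * conj w).im
      + (VB r + μ.im) * normSq w + (VA r - VB r) / 2 * (normSq w + (wt * conj w).re) := by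
    rw [h2]
    simp only [Complex.mul_re, Complex.mul_im, Complex.add_re, Complex.add_im, Complex.sub_re,
      Complex.sub_im, Complex.neg_re, Complex.neg_im, Complex.I_re, Complex.I_im,
      Complex.ofReal_re, Complex.ofReal_im, Complex.conj_re, Complex.conj_im,
      Complex.normSq_apply, Complex.div_ofNat_re, Complex.div_ofNat_im]
    ring
  have hwn : normSq w = ‖w‖ ^ 2 := Complex.normSq_eq_norm_sq w
  have hw1n : normSq w1 = ‖w1‖ ^ 2 := Complex.normSq_eq_norm_sq w1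
  have hwtn : normSq wt = ‖wt‖ ^ 2 := Complex.normSq_eq_norm_sq wt
  have e1 : |(w1 * conj w).re| ≤ ‖w1‖ * ‖w‖ := by
    have := Complex.abs_re_le_norm (w1 * conj w)
    rwa [norm_mul, Complex.norm_conj] at this
  have e2 : |(w1 * conj w).im| ≤ ‖w1‖ * ‖w‖ := by
    have := Complex.abs_im_le_norm (w1 * conj w)
    rwa [norm_mul, Complex.norm_conj] at this
  have e3 : |(wt * conj w).re| ≤ ‖wt‖ * ‖w‖ := by
    have := Complex.abs_re_le_norm (wt * conj w)
    rwa [norm_mul, Complex.norm_conj] at this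
  have e4 : -(C * (‖w1‖ * ‖w‖)) ≤ -t * (w1 * conj w).re := by
    have := mul_le_mul htC e1 (abs_nonneg _) hC0
    rw [← abs_mul] at this
    have := (abs_le.1 this).2
    linarith
  have e5 : -(C * (‖w1‖ * ‖w‖)) ≤ X r * (w1 * conj w).im := by
    have := mul_le_mul hX e2 (abs_nonneg _) hC0
    rw [← abs_mul] at this
    exact (abs_le.1 this).1
  have e6 : -(‖wt‖ * ‖w‖) ≤ (wt * conj w).re := (abs_le.1 e3).1
  have hd : 0 ≤ VA r - VB r := by linarith
  have hd2 : VA r - VB r ≤ eps1 := by linarith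
  have hwtV : ‖wt‖ ^ 2 ≤ V := by rw [← hwtn]; exact hV
  have e7 : -(eps1 * V / 8) ≤ (VA r - VB r) / 2 * (normSq w + (wt * conj w).re) := by
    have e8 : -(‖wt‖ ^ 2 / 4) ≤ normSq w + (wt * conj w).re := by
      rw [hwn]; nlinarith [sq_nonneg (‖w‖ - ‖wt‖ / 2)]
    have e9 := mul_le_mul_of_nonneg_left e8 (by linarith : 0 ≤ (VA r - VB r) / 2)
    have e10 : (VA r - VB r) * ‖wt‖ ^ 2 ≤ eps1 * V :=
      mul_le_mul hd2 hwtV (sq_nonneg _) (by linarith)
    linarith
  rw [h3, hwn, hw1n]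
  rw [hwn] at e7
  have e11 : K ^ 2 * ‖w‖ ^ 2 + 2 * C ^ 2 * ‖w‖ ^ 2 ≤ 2 * (VB r + μ.im) * ‖w‖ ^ 2 := by
    have := mul_le_mul_of_nonneg_right hK (sq_nonneg ‖w‖)
    linarith
  nlinarith [sq_nonneg (‖w1‖ - C * ‖w‖)]

/-- Decay of the evanescent component `A + i B` across `[a, b]`. -/
theorem ev_decay {c0 : ℝ} {μ : ℂ} {M X VA VB : ℝ → ℝ} {A B A1 B1 : ℝ → ℂ}
    {M' X' VA' VB' : ℝ → ℝ} {A2 B2 : ℝ → ℂ} {a b C K eps1 V e0 : ℝ} (hab : a < b)
    (h : ∀ r ∈ Icc a b, SysAt c0 μ M X VA VB A B A1 B1 r (M' r) (X' r) (VA' r) (VB' r)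
      (A2 r) (B2 r))
    (hM : ∀ r ∈ Icc a b, 0 < M r) (hM' : ∀ r ∈ Icc a b, |M' r| ≤ C * M r)
    (hX : ∀ r ∈ Icc a b, |X r| ≤ C) (hV1 : ∀ r ∈ Icc a b, VB r ≤ VA r)
    (hV2 : ∀ r ∈ Icc a b, VA r ≤ VB r + eps1) (hK : 0 < K)
    (hK2 : ∀ r ∈ Icc a b, K ^ 2 + 2 * C ^ 2 ≤ 2 * (VB r + μ.im))
    (hV : ∀ r ∈ Icc a b, normSq (A r - I * B r) ≤ V) (he0 : 0 ≤ e0)
    (hend : ((A1 b + I * B1 b) * conj (A b + I * B b)).re ≤ e0) :
    normSq (A b + I * B b) ≤ normSq (A a + I * B a) / Real.cosh (K * (b - a)) + 2 * e0 / K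
      + eps1 * V / 4 / K ^ 2 := by
  have hbI : b ∈ Icc a b := ⟨hab.le, le_rfl⟩
  have heps : 0 ≤ eps1 := by have := hV1 b hbI; have := hV2 b hbI; linarith
  have hV0 : 0 ≤ V := (normSq_nonneg _).trans (hV b hbI)
  have dw : ∀ r ∈ Icc a b, HasDerivAt (fun x => A x + I * B x) (A1 r + I * B1 r) r :=
    fun r hr => (h r hr).hA.add ((h r hr).hB.const_mul I)
  have dw1 : ∀ r ∈ Icc a b, HasDerivAt (fun x => A1 x + I * B1 x) (A2 r + I * B2 r) r :=
    fun r hr => (h r hr).hA1.add ((h r hr).hB1.const_mul I)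
  have dy : ∀ r ∈ Icc a b, HasDerivAt (fun x => normSq (A x + I * B x))
      (2 * ((A1 r + I * B1 r) * conj (A r + I * B r)).re) r :=
    fun r hr => hasDerivAt_normSq (dw r hr)
  have dy1 : ∀ r ∈ Icc a b, HasDerivAt
      (fun x => 2 * ((A1 x + I * B1 x) * conj (A x + I * B x)).re)
      (2 * (normSq (A1 r + I * B1 r) + ((A2 r + I * B2 r) * conj (A r + I * B r)).re)) r := by
    intro r hr
    refine ((hasDerivAt_re_mul_conj (dw1 r hr) (dw r hr)).const_mul 2).congr_deriv ?_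
    rw [Complex.mul_conj, Complex.ofReal_re]
    ring
  have key := Vale.Agent.P139.H657.conv_cosh (y := fun x => normSq (A x + I * B x))
    (y1 := fun x => 2 * ((A1 x + I * B1 x) * conj (A x + I * B x)).re)
    (y2 := fun r => 2 * (normSq (A1 r + I * B1 r)
      + ((A2 r + I * B2 r) * conj (A r + I * B r)).re))
    (b' := a) (b := b) (K := K) (ε1 := eps1 * V / 4) (ε2 := 2 * e0) hab hK (by positivity)
    (by positivity)
    (fun r hr => (dy r hr).continuousAt.continuousWithinAt)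
    (fun r hr => (dy1 r hr).continuousAt.continuousWithinAt)
    (fun r hr => dy r (Ioo_subset_Icc_self hr))
    (fun r hr => dy1 r (Ioo_subset_Icc_self hr))
    (fun r hr => by
      have hr' := Ioo_subset_Icc_self hr
      exact y2_lower (h r hr') (hM r hr') (hM' r hr') (hX r hr') (hV1 r hr') (hV2 r hr')
        (hK2 r hr') (hV r hr'))
    (by linarith)
  exact key

/-- The increment of `u` towards the left in terms of the `L²` norm of the derivative. -/
theorem norm_sq_le_left {u u1 : ℝ → ℂ} {a b r : ℝ} (hr : r ∈ Icc a b)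
    (hu : ∀ x ∈ Icc a b, HasDerivAt u (u1 x) x) (hc : ContinuousOn u1 (Icc a b)) :
    ‖u r‖ ^ 2 ≤ 2 * ‖u b‖ ^ 2 + 2 * (b - a) * ∫ x in a..b, ‖u1 x‖ ^ 2 := by
  have hab : a ≤ b := hr.1.trans hr.2
  have hsub : uIcc r b ⊆ Icc a b := by
    rw [uIcc_of_le hr.2]; exact Icc_subset_Icc hr.1 le_rfl
  have hc' : ContinuousOn u1 (uIcc r b) := hc.mono hsub
  have hi : IntervalIntegrable u1 volume r b := hc'.intervalIntegrable
  have hin : IntervalIntegrable (fun x => ‖u1 x‖) volume r b := hc'.norm.intervalIntegrable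
  have hi2 : IntervalIntegrable (fun x => ‖u1 x‖ ^ 2) volume r b :=
    (hc'.norm.pow 2).intervalIntegrable
  have hI2 : IntervalIntegrable (fun x => ‖u1 x‖ ^ 2) volume a b := by
    refine ContinuousOn.intervalIntegrable ?_
    rw [uIcc_of_le hab]
    exact hc.norm.pow 2
  have e1 : u b - u r = ∫ x in r..b, u1 x :=
    (intervalIntegral.integral_eq_sub_of_hasDerivAt (fun x hx => hu x (hsub hx)) hi).symm
  have e2 : ‖u b - u r‖ ≤ ∫ x in r..b, ‖u1 x‖ := by
    rw [e1]; exact intervalIntegral.norm_integral_le_integral_norm hr.2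
  have e3 : ‖u b - u r‖ ^ 2 ≤ (b - r) * ∫ x in r..b, ‖u1 x‖ ^ 2 :=
    (pow_le_pow_left₀ (norm_nonneg _) e2 2).trans (cs_interval hr.2 hin hi2)
  have e4 : ∫ x in r..b, ‖u1 x‖ ^ 2 ≤ ∫ x in a..b, ‖u1 x‖ ^ 2 :=
    intervalIntegral.integral_mono_interval hr.1 hr.2 le_rfl
      (Eventually.of_forall fun x => sq_nonneg _) hI2
  have e6 : (b - r) * ∫ x in r..b, ‖u1 x‖ ^ 2 ≤ (b - a) * ∫ x in a..b, ‖u1 x‖ ^ 2 := by
    refine mul_le_mul (by linarith [hr.1]) e4 ?_ (by linarith)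
    exact intervalIntegral.integral_nonneg hr.2 fun x _ => sq_nonneg _
  have e7 : ‖u r‖ ≤ ‖u b‖ + ‖u b - u r‖ := by
    have := norm_sub_norm_le (u r) (u b)
    rw [norm_sub_rev] at this
    linarith
  nlinarith [norm_nonneg (u r), norm_nonneg (u b), norm_nonneg (u b - u r),
    sq_nonneg (‖u b‖ - ‖u b - u r‖)]

/-- The explicit form: decay, trace inequality and energy. -/
theorem ev_final_aux {c0 : ℝ} {μ : ℂ} {M X VA VB : ℝ → ℝ} {A B A1 B1 : ℝ → ℂ}
    {M' X' VA' VB' : ℝ → ℝ} {A2 B2 : ℝ → ℂ} {a b C K eps1 e0 m1 : ℝ} (hab : a < b)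
    (h : ∀ r ∈ Icc a b, SysAt c0 μ M X VA VB A B A1 B1 r (M' r) (X' r) (VA' r) (VB' r)
      (A2 r) (B2 r))
    (hm1 : 0 < m1) (hM : ∀ r ∈ Icc a b, m1 ≤ M r) (hM' : ∀ r ∈ Icc a b, |M' r| ≤ C * M r)
    (hX : ∀ r ∈ Icc a b, |X r| ≤ C) (hV1 : ∀ r ∈ Icc a b, VB r ≤ VA r)
    (hV2 : ∀ r ∈ Icc a b, VA r ≤ VB r + eps1) (hK : 0 < K)
    (hK2 : ∀ r ∈ Icc a b, K ^ 2 + 2 * C ^ 2 ≤ 2 * (VB r + μ.im))
    (hcosh : 4 ≤ Real.cosh (K * (b - a))) (he0 : 0 ≤ e0)
    (hend : ((A1 b + I * B1 b) * conj (A b + I * B b)).re ≤ e0) :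
    normSq (A b + I * B b) ≤
      8 * (b - a) / m1 * (∫ r in a..b, M r * (normSq (A1 r) + normSq (B1 r)))
        / Real.cosh (K * (b - a)) + 4 * e0 / K
      + eps1 / (2 * K ^ 2) * (2 * normSq (A b - I * B b)
        + 4 * (b - a) / m1 * ∫ r in a..b, M r * (normSq (A1 r) + normSq (B1 r))) := by
  have hbI : b ∈ Icc a b := ⟨hab.le, le_rfl⟩
  have heps : 0 ≤ eps1 := by have := hV1 b hbI; have := hV2 b hbI; linarith
  have hMc : ContinuousOn M (Icc a b) := fun r hr => (h r hr).hM.continuousAt.continuousWithinAt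
  have hA1c : ContinuousOn A1 (Icc a b) := fun r hr =>
    (h r hr).hA1.continuousAt.continuousWithinAt
  have hB1c : ContinuousOn B1 (Icc a b) := fun r hr =>
    (h r hr).hB1.continuousAt.continuousWithinAt
  set E1 : ℝ := ∫ r in a..b, M r * (normSq (A1 r) + normSq (B1 r)) with hE1
  have hnc : Continuous fun z : ℂ => normSq z := Complex.continuous_normSq
  -- both combinations
  have hcomb : ∀ (s : ℂ), normSq s = 1 → ∫ r in a..b, ‖A1 r + s * B1 r‖ ^ 2 ≤ 2 / m1 * E1 := by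
    intro s hs
    rw [hE1, ← intervalIntegral.integral_const_mul]
    refine intervalIntegral.integral_mono_on hab.le ?_ ?_ ?_
    · refine ContinuousOn.intervalIntegrable ?_
      rw [uIcc_of_le hab.le]
      exact ((hA1c.add (continuousOn_const.mul hB1c)).norm.pow 2)
    · refine ContinuousOn.intervalIntegrable ?_
      rw [uIcc_of_le hab.le]
      exact continuousOn_const.mul (hMc.mul ((hnc.comp_continuousOn hA1c).add
        (hnc.comp_continuousOn hB1c)))
    · intro r hr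
      have e1 : ‖A1 r + s * B1 r‖ ^ 2 ≤ 2 * (normSq (A1 r) + normSq (B1 r)) := by
        have e2 := norm_add_le (A1 r) (s * B1 r)
        have hs1 : ‖s‖ = 1 := by
          have := Complex.normSq_eq_norm_sq s
          rw [hs] at this
          nlinarith [norm_nonneg s]
        rw [norm_mul, hs1, one_mul] at e2
        rw [Complex.normSq_eq_norm_sq, Complex.normSq_eq_norm_sq]
        nlinarith [norm_nonneg (A1 r + s * B1 r), norm_nonneg (A1 r), norm_nonneg (B1 r),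
          sq_nonneg (‖A1 r‖ - ‖B1 r‖)]
      have e3 : 2 * (normSq (A1 r) + normSq (B1 r))
          ≤ 2 / m1 * (M r * (normSq (A1 r) + normSq (B1 r))) := by
        have e4 : 0 ≤ normSq (A1 r) + normSq (B1 r) := add_nonneg (normSq_nonneg _)
          (normSq_nonneg _)
        have e5 := mul_le_mul_of_nonneg_right (hM r hr) e4
        rw [div_mul_eq_mul_div, le_div_iff₀ hm1]
        linarith
      exact e1.trans e3
  have dw : ∀ (s : ℂ), ∀ r ∈ Icc a b, HasDerivAt (fun x => A x + s * B x)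
      (A1 r + s * B1 r) r := fun s r hr => (h r hr).hA.add ((h r hr).hB.const_mul s)
  have hh : 0 < b - a := by linarith
  have htr : ∀ (s : ℂ), normSq s = 1 → ∀ r ∈ Icc a b, normSq (A r + s * B r)
      ≤ 2 * normSq (A b + s * B b) + 4 * (b - a) / m1 * E1 := by
    intro s hs r hr
    have e1 := norm_sq_le_left hr (dw s) (hA1c.add (continuousOn_const.mul hB1c))
    have e2 := mul_le_mul_of_nonneg_left (hcomb s hs) (by linarith : 0 ≤ 2 * (b - a))
    rw [Complex.normSq_eq_norm_sq, Complex.normSq_eq_norm_sq]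
    have e3 : 2 * (b - a) * (2 / m1 * E1) = 4 * (b - a) / m1 * E1 := by ring
    linarith
  have hw := htr I (by simp) a ⟨le_rfl, hab.le⟩
  have hwt : ∀ r ∈ Icc a b, normSq (A r - I * B r)
      ≤ 2 * normSq (A b - I * B b) + 4 * (b - a) / m1 * E1 := by
    intro r hr
    have := htr (-I) (by simp) r hr
    simpa only [neg_mul, ← sub_eq_add_neg] using this
  have key := ev_decay hab h (fun r hr => hm1.trans_le (hM r hr)) hM' hX hV1 hV2 hK hK2
    hwt he0 hend
  set ch : ℝ := Real.cosh (K * (b - a)) with hch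
  have hch0 : 0 < ch := Real.cosh_pos _
  have hy0 : 0 ≤ normSq (A b + I * B b) := normSq_nonneg _
  have e1 : normSq (A a + I * B a) / ch
      ≤ normSq (A b + I * B b) / 2 + 4 * (b - a) / m1 * E1 / ch := by
    have e2 : normSq (A a + I * B a) / ch
        ≤ (2 * normSq (A b + I * B b) + 4 * (b - a) / m1 * E1) / ch :=
      div_le_div_of_nonneg_right hw hch0.le
    rw [add_div] at e2
    have e3 : 2 * normSq (A b + I * B b) / ch ≤ normSq (A b + I * B b) / 2 := by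
      rw [div_le_div_iff₀ hch0 two_pos]
      nlinarith
    linarith
  have e4 : 8 * (b - a) / m1 * E1 / ch = 2 * (4 * (b - a) / m1 * E1 / ch) := by ring
  have e5 : 4 * e0 / K = 2 * (2 * e0 / K) := by ring
  have e6 : ∀ V : ℝ, eps1 / (2 * K ^ 2) * V = 2 * (eps1 * V / 4 / K ^ 2) := by
    intro V
    field_simp
    ring
  rw [e4, e5, e6]
  linarith

end Vale.Agent.P139.H340
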